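import Vale.Agent.N304.Main

open MeasureTheory

namespace Vale.Agent.Results.P304.A0Strict

open Vale.Agent.P304

/-- In the randomized `k`-server problem the additive constant can be removed, for every starting
position, at the price of a factor two. -/
theorem result :
    (∀ k : ℕ, 2 ≤ k → ∃ (Ω : Type) (_ : MeasurableSpace Ω) (P : Measure Ω)
      (A : Ω → (n : ℕ) → (Fin (k + n) → Fin (k + n) → ℝ) → Fin k),
      IsProbabilityMeasure P ∧ (∀ n M, Measurable fun ω => A ω n M) ∧
        ∀ (X : Type) [MetricSpace X] (s : Fin k → X) (a : Ω → List X → Fin k),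
          (∀ ω h, a ω h = A ω h.length fun i j =>
            dist (Fin.append s h.get i) (Fin.append s h.get j)) →
          ∀ σ : List X, Integrable (fun ω => policyCost s (a ω) σ) P ∧
            ∫ ω, policyCost s (a ω) σ ∂P ≤ (2 * (R k).toReal - 1) * opt s σ) ∧
    ∀ k : ℕ, 2 ≤ k → ∀ (X : Type) [MetricSpace X], ((k + 1 : ℕ) : ℕ∞) ≤ ENat.card X →
      ∀ s : Fin k → X,
        (Function.Injective s → ∃ (Ω : Type) (_ : MeasurableSpace Ω) (P : Measure Ω)
          (a : Ω → List X → Fin k), IsProbabilityMeasure P ∧ (∀ h, Measurable fun ω => a ω h) ∧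
          ∀ σ : List X,
            ∫ ω, policyCost s (a ω) σ ∂P ≤ (2 * (ratio s).toReal - 1) * opt s σ ∧
            ∀ D : ℝ, (∀ x y : X, dist x y ≤ D) → ∫ ω, policyCost s (a ω) σ ∂P ≤
              (ratio s).toReal * opt s σ + ((ratio s).toReal - 1) * (k * D)) ∧
        ((∃ D : ℝ, ∀ x y : X, dist x y ≤ D) → IsCompetitive s (ratio s).toReal) := by
  refine ⟨fun k hk => N.universal_strict (by omega) (N.R_ne_top (by omega)),
    fun k hk X _ hX s => ?_⟩
  have : NeZero k := ⟨by omega⟩
  have hR : R k ≠ ⊤ := N.R_ne_top (by omega)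
  exact ⟨fun hs => N.per_space hX s hs (ne_top_of_le_ne_top hR (N.ratio_le_R s)),
    fun ⟨_, hD⟩ => N.attained hR hX hD s⟩

end Vale.Agent.Results.P304.A0Strict
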